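import Vale.Agent.P216.H140.W1Defs

/-!
# P216-C, block C12-MID: the piece `V1`

`dl V = ± Θ` on the paths with free start: the Leibniz rule of `N929.Om1` with a free end point.
-/

open Set Finsupp BoundedContinuousFunction

namespace Vale.Agent.P216.H923C

open Vale.Agent.P216.PS Vale.Agent.P216.Sl Vale.Agent.P216.H456 Vale.Agent.P216.H140
open Vale.Agent.P216.N929 (Coc Fine Tau Scl intg evp cutp mesh fib)
open Vale.Agent.P216.H754B (rv rv_apply lip_rv dist_rv_le)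

variable {k : Type} [Field k] {M : Type} [MetricSpace M] [CompactSpace M]

/-- Pairs (curve starting at `q`, time). -/
def PTf (q : M) (S : ℝ) : Set ((ℝ →ᵇ M) × ℝ) :=
  {p | Lip (p.1 : ℝ → M) ∧ (∀ u ≤ 0, p.1 u = q) ∧ 0 ≤ p.2 ∧ p.2 ≤ S}

variable {n m : ℕ} {ρ₀ ρ₁ r δ : ℝ} {q y : M} {T S : ℝ} {g : List (ℝ →ᵇ M) → k}

theorem dist_ev_lt {p p' : (ℝ →ᵇ M) × ℝ} (hp : p ∈ PTf q S) {η : ℝ} (h : dist p p' < η) :
    dist (p.1 p.2) (p'.1 p'.2) < 2 * η := by
  have h1 := N929.dist_ev_le (σ := p.2) (σ' := p'.2) (w' := p'.1) hp.1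
  have h2 : dist p.1 p'.1 < η := (le_max_left _ _).trans_lt h
  have h3 : |p.2 - p'.2| < η := (le_max_right _ _).trans_lt h
  linarith

/-- The Leibniz rule for small lists. -/
theorem intg_leibniz (τ : Tau k M n ρ₁) {η : ℝ} (h2 : 2 * η ≤ τ.ε)
    {L : List ((ℝ →ᵇ M) × ℝ)} (hL : L.length = n + m + 2) (hf : Fine (PTf q S) η L) :
    dl (intg n τ.f g r y) L = (-1) ^ n * (τ.f ((L.take (n + 1)).map (evp y)) *
      dl g ((L.drop n).map (cutp r y))) := by
  rw [intg, N929.dl_cup _ _ _ _ (by omega)]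
  have h1 : dl (fun l => τ.f (l.map (evp y))) (L.take (n + 2)) = 0 := by
    rw [N929.dl_map τ.f (evp y)]
    refine τ.coc _ (by rw [List.length_map, List.length_take]; omega) ⟨fun _ _ => mem_univ _, ?_⟩
    intro a ha b hb
    obtain ⟨p, hp, rfl⟩ := List.mem_map.1 ha
    obtain ⟨p', hp', rfl⟩ := List.mem_map.1 hb
    have hp := List.mem_of_mem_take hp
    have hp' := List.mem_of_mem_take hp'
    have h3 := dist_ev_lt (hf.1 p hp) (hf.2 p hp p' hp')
    have hd : dist (evp y p) (evp y p') = dist (p.1 p.2) (p'.1 p'.2) := by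
      rw [evp, evp, Prod.dist_eq, dist_self, max_eq_left dist_nonneg]
    rw [hd]
    linarith
  rw [h1, zero_mul, zero_add, N929.dl_map g (cutp r y)]

/-- If `τ` does not vanish, the cut paths are small. -/
theorem cut_fine (τ : Tau k M n ρ₁) (hseg : LS.UniqSeg M ρ₀) (hr : 0 < r) (hrρ : r < ρ₀)
    {ε η : ℝ} (hs : Scl τ r y ε η) {L : List ((ℝ →ᵇ M) × ℝ)} (hf : Fine (PTf q S) η L)
    (hne : L ≠ []) (hτ : τ.f ((L.take (n + 1)).map (evp y)) ≠ 0) :
    Fine (P q y (S + r)) ε ((L.drop n).map (cutp r y)) := by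
  have h3 := hs.h3'
  have key : ∀ p ∈ L, dist (p.1 p.2) y ≤ r := by
    intro p hp
    obtain ⟨p', hp'⟩ : ∃ p', p' ∈ L.take (n + 1) := by
      obtain ⟨p', L, rfl⟩ := List.exists_cons_of_ne_nil hne
      exact ⟨p', by rw [List.take_succ_cons]; exact List.mem_cons_self⟩
    have h4 : dist (p'.1 p'.2) y < ρ₁ := by
      by_contra hcon
      exact hτ (τ.supp _ ⟨evp y p', List.mem_map_of_mem hp', not_lt.1 hcon⟩)
    have hq' := List.mem_of_mem_take hp'
    have h5 := dist_ev_lt (hf.1 p hp) (hf.2 p hp p' hq')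
    linarith [dist_triangle (p.1 p.2) (p'.1 p'.2) y]
  refine ⟨fun w hw => ?_, fun w hw w' hw' => ?_⟩
  · obtain ⟨p, hp, rfl⟩ := List.mem_map.1 hw
    have hp := List.mem_of_mem_drop hp
    have hm := splice_mem (a := q) (b := y) (t := 0) hseg hr hrρ (w := p.1) (w' := cst y)
      (σ := p.2) (τ := 0) (hf.1 p hp).1 (lip_cst y) (by rw [cst_apply]; exact key p hp)
      (hf.1 p hp).2.2.1 le_rfl (hf.1 p hp).2.1 (fun u _ => rfl)
    refine P_mono ?_ hm
    have := (hf.1 p hp).2.2.2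
    linarith
  · obtain ⟨p, hp, rfl⟩ := List.mem_map.1 hw
    obtain ⟨p', hp', rfl⟩ := List.mem_map.1 hw'
    have hp := List.mem_of_mem_drop hp
    have hp' := List.mem_of_mem_drop hp'
    have hd := hf.2 p hp p' hp'
    exact hs.mod p.1 p'.1 (hf.1 p hp).1 (hf.1 p' hp').1 p.2 p'.2 (key p hp) (key p' hp')
      ((le_max_left _ _).trans_lt hd) ((le_max_right _ _).trans_lt hd)

omit [CompactSpace M] in
/-- The lists of the grid. -/
theorem fine_grid {l : List (ℝ →ᵇ M)} {η : ℝ} (hδ : δ < η) (hδ0 : 0 < δ)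
    (hf : Fine {w : ℝ →ᵇ M | Lip (w : ℝ → M) ∧ ∀ u ≤ 0, w u = q} η l)
    {N : ℕ} {t : List ℝ} (ht : ∃ j < N, t = [(j : ℝ) * δ, ((j + 1 : ℕ) : ℝ) * δ])
    {L : List ((ℝ →ᵇ M) × ℝ)} (hL : Gr l t L) : Fine (PTf q (N * δ)) η L := by
  obtain ⟨j, hj, rfl⟩ := ht
  have hj' : ((j + 1 : ℕ) : ℝ) ≤ N := by exact_mod_cast hj
  have htm : ∀ s ∈ [(j : ℝ) * δ, ((j + 1 : ℕ) : ℝ) * δ], (j : ℝ) * δ ≤ s ∧ s ≤ (j : ℝ) * δ + δ := by
    intro s hs
    simp only [List.mem_cons, List.not_mem_nil, or_false] at hs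
    rcases hs with rfl | rfl
    · exact ⟨le_rfl, by linarith⟩
    · push_cast; constructor <;> nlinarith
  refine ⟨fun p hp => ⟨(hf.1 p.1 (hL.2 p hp).1).1, (hf.1 p.1 (hL.2 p hp).1).2, ?_, ?_⟩,
    fun p hp p' hq => ?_⟩
  · exact (by positivity : (0 : ℝ) ≤ j * δ).trans (htm _ (hL.2 p hp).2).1
  · refine (htm _ (hL.2 p hp).2).2.trans ?_
    have : ((j + 1 : ℕ) : ℝ) * δ ≤ N * δ := mul_le_mul_of_nonneg_right hj' hδ0.le
    push_cast at this
    linarith
  · rw [Prod.dist_eq]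
    refine max_lt (hf.2 _ (hL.2 p hp).1 _ (hL.2 p' hq).1) ?_
    have h1 := htm _ (hL.2 p hp).2
    have h2 := htm _ (hL.2 p' hq).2
    rw [Real.dist_eq, abs_lt]
    constructor <;> linarith

/-- **[V1]**. -/
theorem v1 : V1 := by
  intro k M _ _ _ n e N T ρ₀ ρ₁ r ε η₀ p q τ g hseg hr hrρ hn hs hg hN hqp l hl hf
  set δ : ℝ := 1 / ((N : ℝ) + 1) with hδ
  have hδ0 : 0 < δ := by positivity
  have hNT : ((T * (N + 1) : ℕ) : ℝ) * δ = T := by
    rw [hδ]
    push_cast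
    field_simp
  set c : Ch k ℝ := mesh k δ (T * (N + 1) : ℕ) with hc
  have e1 : dl (VV n τ.f g r p N T) l = dl (fib c (intg n τ.f g r p)) (l.map (rv T)) := by
    rw [← N929.dl_map]
    rfl
  have hne : l.map (rv (T : ℝ)) ≠ [] := by
    intro h
    rw [List.map_eq_nil_iff] at h
    rw [h] at hl
    simp at hl
  have hlen : (l.map (rv (T : ℝ))).length = n + e + 1 := by rw [List.length_map, hl]
  have hf' : Fine {w : ℝ →ᵇ M | Lip (w : ℝ → M) ∧ ∀ u ≤ 0, w u = q} η₀ (l.map (rv (T : ℝ))) := by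
    refine ⟨fun w hw => ?_, fun w hw w' hw' => ?_⟩
    · obtain ⟨v, hv, rfl⟩ := List.mem_map.1 hw
      have h := hf.1 v hv
      refine ⟨lip_rv h.1 _, fun u hu => ?_⟩
      rw [rv_apply]
      exact h.2.2 _ (by linarith)
    · obtain ⟨v, hv, rfl⟩ := List.mem_map.1 hw
      obtain ⟨v', hv', rfl⟩ := List.mem_map.1 hw'
      exact (dist_rv_le _ _ _).trans_lt (hf.2 v hv v' hv')
  -- the interior term
  have h0 : fib c (dl (intg n τ.f g r p)) (l.map (rv (T : ℝ))) = 0 := by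
    refine N929.fib_eq_zero (N929.mesh_mem δ _) fun t ht L hL => ?_
    have hLf := fine_grid hN hδ0 hf' ht hL
    have hLl : L.length = n + e + 2 := by
      have := hL.1
      obtain ⟨j, _, rfl⟩ := ht
      simp only [List.length_cons, List.length_nil] at this
      omega
    rw [intg_leibniz τ hs.h2 hLl hLf]
    by_cases hτ : τ.f ((L.take (n + 1)).map (evp p)) = 0
    · rw [hτ]; ring
    · have hLne : L ≠ [] := by rintro rfl; simp at hLl
      have hcf := cut_fine τ hseg hr hrρ hs hLf hLne hτ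
      rw [hg _ _ (by rw [List.length_map, List.length_drop, hLl]; omega) hcf]
      ring
  -- the ends
  have hend0 : intg n τ.f g r p ((l.map (rv (T : ℝ))).map fun a => (a, (0 : ℝ))) = 0 := by
    refine N929.intg_zero τ (by simpa using hne) fun x hx => ?_
    obtain ⟨w, hw, rfl⟩ := List.mem_map.1 hx
    change ρ₁ ≤ dist (w 0) p
    rw [(hf'.1 w hw).2 0 le_rfl]
    exact hqp
  have hend1 : intg n τ.f g r p ((l.map (rv (T : ℝ))).map fun a => (a, (T : ℝ))) =
      Th n τ.f g r p T l := by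
    rw [Th, List.map_map]
    rfl
  rw [e1, N929.dl_fib (N929.mesh_Ln δ _) _ hne, h0, zero_add, N929.bd_mesh, hNT, map_sub,
    map_sub, N929.ev_sh_point _ hne, N929.ev_sh_point _ hne, hend0, hend1, sub_zero, hlen]

end Vale.Agent.P216.H923C
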